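import Vale.Agent.P305X.Keys
import Vale.Agent.P305Y.Defs
import Vale.Agent.P305R.Defs

/-!
# Compression of a level: the specification
-/

namespace Vale.Agent.P305X

open Vale.Agent.P305E Vale.Agent.P305M Vale.Agent.P305Q Vale.Agent.P305Y

/-- The walk data of an object: first spoke, middle item, middle spoke, last spoke. -/
abbrev O4 : Type := ℕ × Option (ℕ × Bool) × ℕ × ℕ

/-- The walk of an object, for spokes `w`. -/
def Wo (w : ℕ → SW) (o : O4) : SW := rev (w o.1) ++ (o.2.1.toList ++ (w o.2.2.1 ++ w o.2.2.2))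

/-- The nodes of the forest on the spokes of an object. -/
def ids (sp : ℕ → List ℕ) (o : O4) : List ℕ := sp o.1 ++ (sp o.2.2.1 ++ sp o.2.2.2)

/-- The spoke as a walk. -/
def spk (sp : ℕ → List ℕ) (te : ℕ → ℕ × Bool) (a : ℕ) : SW := (sp a).map te

/-- The result of the compression: the store grows from `S` to `S'` by the items `P`; the item `z`
consists of the tree items of the nodes `own z`. -/
structure CompOK (sp : ℕ → List ℕ) (te : ℕ → ℕ × Bool) (ob : ℕ → O4) (A B : ℕ → ℕ)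
    (Sk nms : List ℕ) (Pi : ℕ → List (ℕ × Bool)) (k γ : ℕ) (S S' : Sto) (P K : List ℕ)
    (Q : ℕ → SW) (own : ℕ → List ℕ) : Prop where
  nx : S'.2.2 = S.2.2 + P.length
  plen : P.length ≤ 6 * Sk.length
  old : ∀ z < S.2.2, S'.1.get z = S.1.get z ∧ S'.2.1.get z = S.2.1.get z
  new : ∀ z, z ∈ P ↔ S.2.2 ≤ z ∧ z < S'.2.2
  nodup : P.Nodup
  cs : ∀ z ∈ P, S'.2.1.get z = (own z).map te ∧ own z ≠ [] ∧ (own z).length ≤ k ∧
    Wlk S.1.get (S'.1.get z).1 (S'.2.1.get z) (S'.1.get z).2.1 ∧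
    (S'.1.get z).2.2.1 = wlen S.1.get (S'.2.1.get z) ∧
    (S'.1.get z).2.2.2 = wg S.1.get (S'.2.1.get z)
  sub : ∀ z ∈ P, ∃ s ∈ Sk, ∀ a ∈ own z, a ∈ ids sp (ob s)
  disj : (P.flatMap own).Nodup
  kmem : ∀ z ∈ K, z ∈ P ∨ ∃ s ∈ Sk, ∃ d, (ob s).2.1 = some (z, d)
  klen : K.length ≤ 7 * Sk.length
  walk : ∀ o ∈ nms, ∀ u v, P305R.Walk (fun s => (A s, B s)) u (Pi o) v → Wlk S'.1.get u (Q o) v
  qk : ∀ o ∈ nms, ∀ c ∈ Q o, c.1 ∈ K
  qlen : ∀ o ∈ nms, (Q o).length ≤ γ * (3 * k + 1)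
  qw : ∀ o ∈ nms, wlen S'.1.get (Q o) =
    nsum (fun s => wlen S.1.get (Wo (spk sp te) (ob s))) (Pi o)
  load : ∀ o ∈ nms, ∀ c ∈ Q o, ∃ s ∈ Pi o,
    (c.1 ∈ P ∧ ∀ a ∈ own c.1, a ∈ ids sp (ob s.1)) ∨ ∃ d, (ob s.1).2.1 = some (c.1, d)

/-- **The block COMP**; input `(S, sp, te, ob, Sk, nms, Pi)`: the skeleton `Sk` and `nms` are lists
of names of objects, `Pi` are the routes. -/
def COMP : Prop := ∃ f : Sto × Arr (List ℕ) × Arr (ℕ × Bool) × Arr O4 × List ℕ × List ℕ ×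
    Arr (List (ℕ × Bool)) → M (Sto × List ℕ × List ℕ × Arr SW), Impl f ∧
  ∀ (c : Cx) (S : Sto) (sp : Arr (List ℕ)) (te : Arr (ℕ × Bool)) (ob : Arr O4) (Sk nms : List ℕ)
    (Pi : Arr (List (ℕ × Bool))) (par A B : ℕ → ℕ) (k γ L : ℕ), Fo sp.get par →
    (∀ a, (sp.get a).length ≤ k) →
    (∀ s ∈ Sk, Wlk S.1.get (A s) (Wo (spk sp.get te.get) (ob.get s)) (B s)) →
    (∀ s ∈ Sk, ∀ x ∈ Wo (spk sp.get te.get) (ob.get s), x.1 < S.2.2 ∧
      (S.1.get x.1).2.2.1 ≤ L ∧ (S.1.get x.1).2.2.2.natAbs ≤ L) →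
    (∀ o ∈ nms, (Pi.get o).length ≤ γ ∧ ∀ s ∈ Pi.get o, s.1 ∈ Sk) →
    k * L ≤ c.B → S.2.2 + 6 * Sk.length ≤ c.B →
    Tri c (f (S, sp, te, ob, Sk, nms, Pi)) fun r t =>
      (∃ own, CompOK sp.get te.get ob.get A B Sk nms Pi.get k γ S r.1 r.2.1 r.2.2.1 r.2.2.2.get
        own) ∧ t ≤ 100 * (k + 1) * (Sk.length + (γ + 1) * nms.length)

theorem walk_map {E : ℕ → ℕ × ℕ} (π : ℕ → ℕ) {A B : ℕ → ℕ} {w : List (ℕ × Bool)} {u v : ℕ}
    (h : P305R.Walk E u w v) (e : ∀ s ∈ w, A s.1 = π (E s.1).1 ∧ B s.1 = π (E s.1).2) :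
    P305R.Walk (fun s => (A s, B s)) (π u) w (π v) := by
  induction w generalizing u with
  | nil => exact congrArg π h
  | cons s w ih =>
    obtain ⟨e1, e2⟩ := e s (by simp)
    have a : P305R.src (fun s => (A s, B s)) s = π (P305R.src E s) := by
      unfold P305R.src; split_ifs; exacts [e1, e2]
    have b : P305R.dst (fun s => (A s, B s)) s = π (P305R.dst E s) := by
      unfold P305R.dst; split_ifs; exacts [e2, e1]
    exact ⟨by rw [a, h.1], b ▸ ih h.2 fun s hs => e s (by simp [hs])⟩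

end Vale.Agent.P305X
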