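import Vale.Agent.P305X.Comp
import Vale.Agent.P305BD.Defs

/-!
# Routes and compression of a level
-/

namespace Vale.Agent.P305X

open Vale.Agent.P305E Vale.Agent.P305C Vale.Agent.P305M Vale.Agent.P305Q Vale.Agent.P305Y
open Vale.Agent.P305CV Vale.Agent.P305U Vale.Agent.P305BD
open Vale.Agent.P305W (fta fhd fln fg iw_iff)

theorem CompOK.mono {sp : ℕ → List ℕ} {te : ℕ → ℕ × Bool} {ob : ℕ → O4} {A B : ℕ → ℕ}
    {Sk nms : List ℕ} {Pi : ℕ → List (ℕ × Bool)} {k γ γ' : ℕ} {S S' : Sto} {P K : List ℕ}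
    {Q : ℕ → SW} {own : ℕ → List ℕ} (h : CompOK sp te ob A B Sk nms Pi k γ S S' P K Q own)
    (hγ : γ ≤ γ') : CompOK sp te ob A B Sk nms Pi k γ' S S' P K Q own :=
  { h with qlen := fun o ho => (h.qlen o ho).trans (Nat.mul_le_mul_right _ hγ) }

theorem rwOK_congr {es es' : ℕ → ℕ × ℕ × ℕ} {n γ Λ γ' Λ' : ℕ} {Sk : List ℕ} {Pi : ℕ → SW}
    (h : RwOK es n γ Λ Sk Pi) (e : ∀ i < n, es' i = es i) (hγ : γ ≤ γ') (hΛ : Λ ≤ Λ') :
    RwOK es' n γ' Λ' Sk Pi where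
  nd := h.nd
  sub := fun s hs => ⟨(h.sub s hs).1, e s (h.sub s hs).1 ▸ (h.sub s hs).2⟩
  walk := fun i hi => by
    rw [e i hi]
    exact walk_map id (A := fun s => (es' s).2.1) (B := fun s => (es' s).2.2) (h.walk i hi)
      fun s hs => by rw [e _ (h.sub _ (h.skel i hi s hs).1).1]; exact ⟨rfl, rfl⟩
  skel := fun i hi s hs => ⟨(h.skel i hi s hs).1, by
    rw [e i hi, e _ (h.sub _ (h.skel i hi s hs).1).1]; exact (h.skel i hi s hs).2⟩
  hops := fun i hi => (h.hops i hi).trans hγ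
  load := fun s => (h.load s).trans hΛ

@[fun_prop] theorem Pure.e3 {α : Type} [Rep α] {L : α → LV} {o : α → Ob} (hL : Pure L)
    (ho : Pure o) : Pure fun a => e3 (L a) (o a) := by
  unfold P305BD.e3
  fun_prop

@[fun_prop] theorem Pure.o4 {α : Type} [Rep α] {o : α → Ob} (ho : Pure o) :
    Pure fun a => o4 (o a) := by
  unfold P305BD.o4
  fun_prop

/-- The program. -/
def midP (rw : (ℕ × ℕ × ℕ × ℕ × ℕ) × List (ℕ × ℕ × ℕ) → M (List ℕ × Arr SW))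
    (cp : Sto × Arr (List ℕ) × Arr (ℕ × Bool) × Arr O4 × List ℕ × List ℕ ×
      Arr (List (ℕ × Bool)) → M (Sto × List ℕ × List ℕ × Arr SW))
    (p : (ℕ × ℕ × ℕ × ℕ × ℕ) × Sto × LV) : M (Sto × List ℕ × List ℕ × Arr SW) := do
  let es ← mapP (fun o => e3 p.2.2 o) p.2.2.obs
  let r ← rw (p.1, es)
  let ol ← mapP (fun o => o4 o) p.2.2.obs
  let ob ← ofListP (0, none, 0, 0) ol
  let n ← lenP p.2.2.obs
  let nms ← rangeP n
  cp (p.2.1, p.2.2.F.sp, p.2.2.F.te, ob, r.1, nms, r.2)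

theorem sc_le {ta hd len : ℕ → ℕ} {N k J X : ℕ} {P R : ℕ → ℕ} {vs : List ℕ} {G : List WE}
    {cs : List (ℕ × Cl)} {L : LV} (hI : In ta hd len N J R vs G cs)
    (h : LvOK ta hd len N k J P R vs G cs L) (hX : ∀ p ∈ cs, p.1 ≤ X) {o : Ob} (ho : o ∈ L.obs) :
    o.sc ≤ X ∧ 0 < N := by
  have key : ∀ j u, Mem cs j u → L.sc.get j ≤ X ∧ 0 < N := by
    rintro j u ⟨p, h1, h2⟩
    have h3 := List.mem_of_getElem? h1
    exact ⟨(h.info j p h1).1 ▸ hX p h3,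
      Nat.lt_of_le_of_lt (Nat.zero_le _) (hI.lt u ((hI.cl p h3).1 u h2))⟩
  rcases (h.obs o).1 ho with ⟨e, -, j, h1, rfl⟩ | ⟨u, j, j', h1, -, -, rfl⟩ | ⟨u, j, j', h1, -, rfl⟩
  · exact key j _ h1.1
  · exact key j' _ h1.2.1
  · exact key j' _ h1.2.1

theorem mid_num {b d J : ℕ} (hd : 1 ≤ d) (hb : (b + 2) ^ d ≤ 2 ^ b) (hJ : J ≤ (b + 3) ^ 2) :
    2 ≤ b ∧ 16 * J ^ 2 ≤ 2 ^ (16 * b) ∧ 612 * (16 * J ^ 2) ≤ (b + 2) ^ (18 * d) := by
  have h1 : b + 2 ≤ 2 ^ b := (Nat.le_self_pow (by omega) _).trans hb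
  have h2 : 2 ≤ b := by
    by_contra h
    obtain rfl | rfl : b = 0 ∨ b = 1 := by omega
    all_goals norm_num at h1
  have h3 : J ≤ (b + 2) ^ 4 := hJ.trans (by
    rw [show (b + 2) ^ 4 = ((b + 2) ^ 2) ^ 2 by ring]
    exact Nat.pow_le_pow_left (by nlinarith) _)
  have h4 : J ^ 2 ≤ (b + 2) ^ 8 := by
    rw [show (b + 2) ^ 8 = ((b + 2) ^ 4) ^ 2 by ring]
    exact Nat.pow_le_pow_left h3 _
  refine ⟨h2, ?_, ?_⟩
  · calc 16 * J ^ 2 ≤ 2 ^ 4 * (2 ^ b) ^ 8 :=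
          Nat.mul_le_mul le_rfl (h4.trans (Nat.pow_le_pow_left h1 _))
      _ = 2 ^ (4 + b * 8) := by rw [← pow_mul, ← pow_add]
      _ ≤ _ := Nat.pow_le_pow_right (by omega) (by omega)
  · calc 612 * (16 * J ^ 2) = 9792 * J ^ 2 := by ring
      _ ≤ (b + 2) ^ 7 * (b + 2) ^ 8 := Nat.mul_le_mul
          (le_trans (by norm_num) (Nat.pow_le_pow_left (by omega : 4 ≤ b + 2) 7)) h4
      _ = (b + 2) ^ 15 := by ring
      _ ≤ _ := Nat.pow_le_pow_right (by omega) (by omega)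

theorem mid_time {k q J γ p r s n m t t' u : ℕ} (hk : 1 ≤ k) (q1 : 1 ≤ q) (hJ : 1 ≤ J)
    (g1 : 1 ≤ γ) (g2 : γ ≤ p) (g3 : k * (612 * (16 * J ^ 2)) ≤ r) (s1 : s ≤ n)
    (x1 : n ≤ 16 * J ^ 2 * m) (ht : t ≤ q * p * (16 * J ^ 2 * m + 1))
    (ht' : t' ≤ 100 * (k + 1) * (s + (γ + 1) * n)) (hu : u ≤ t + t' + 11 * n) :
    u ≤ q * (p * r) * (m + 1) := by
  obtain ⟨X, hX⟩ : ∃ X, X = 16 * J ^ 2 * m := ⟨_, rfl⟩
  rw [← hX] at x1 ht
  have g4 : t' ≤ 600 * (k * p * X) := by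
    calc t' ≤ 100 * (2 * k) * (X + (p + 1) * X) := ht'.trans (Nat.mul_le_mul (by omega)
          (Nat.add_le_add (s1.trans x1) (Nat.mul_le_mul (by omega) x1)))
      _ = 200 * k * X * (p + 2) := by ring
      _ ≤ 200 * k * X * (3 * p) := Nat.mul_le_mul_left _ (by omega)
      _ = _ := by ring
  have g5 : X ≤ k * p * X := Nat.le_mul_of_pos_left _ (Nat.mul_pos hk (by omega))
  have g6 : k * p * X ≤ q * p * (k * (X + 1)) := by
    calc k * p * X = 1 * p * (k * X) := by ring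
      _ ≤ _ := Nat.mul_le_mul (Nat.mul_le_mul_right _ q1) (Nat.mul_le_mul_left _ (by omega))
  have g7 : t ≤ q * p * (k * (X + 1)) :=
    ht.trans (Nat.mul_le_mul_left _ (Nat.le_mul_of_pos_left _ hk))
  have g8 : X + 1 ≤ 16 * J ^ 2 * (m + 1) := by
    have : 1 ≤ J ^ 2 := Nat.one_le_pow _ _ hJ
    rw [hX, mul_add]; omega
  calc u ≤ 612 * (q * p * (k * (X + 1))) := by omega
    _ ≤ 612 * (q * p * (k * (16 * J ^ 2 * (m + 1)))) := by gcongr
    _ = q * (p * (k * (612 * (16 * J ^ 2)))) * (m + 1) := by ring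
    _ ≤ _ := by gcongr

/-- **The block MID.** -/
theorem mid (h : RW) : MID := by
  obtain ⟨f, c, hf, h⟩ := h
  obtain ⟨g, hg, hc⟩ := comp
  refine ⟨midP f g, c + 18, by unfold midP; fun_prop, fun B e b d q k N J S G PA R vs cs L hd hb hq
    hq' hk hk' he hN hJ hJ' hG hS hv hz hcs hI hL hB => ?_⟩
  obtain ⟨n1, n2, n3⟩ := mid_num hd hb hJ'
  set X := 16 * J ^ 2 * G.length with hX
  have hJ2 : J ≤ J ^ 2 := Nat.le_self_pow (by omega) _
  have x1 : L.obs.length ≤ X := by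
    have := hL.obs_len
    rw [List.length_map] at this
    have a := Nat.mul_le_mul_right G.length hJ2
    have a' := Nat.mul_le_mul_left (J ^ 2) hv
    nlinarith
  have x2 : X ≤ 2 ^ (17 * b) := by
    rw [show 17 * b = 16 * b + b by ring, pow_add]
    exact Nat.mul_le_mul n2 hG
  have b1 : 2 ^ (18 * (b + 1)) ≤ B :=
    (Nat.pow_le_pow_right (by omega) (Nat.mul_le_mul_right _ (by omega))).trans hB
  have b2 : 8 * 2 ^ (17 * b) ≤ B := le_trans (by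
    rw [show 8 * 2 ^ (17 * b) = 2 ^ (17 * b + 3) by ring]
    exact Nat.pow_le_pow_right (by omega) (by omega)) b1
  have b3 : 2 ^ b ≤ 2 ^ (17 * b) := Nat.pow_le_pow_right (by omega) (by omega)
  have q1 : 1 ≤ q := by
    by_contra h0
    obtain rfl : q = 0 := by omega
    rw [zero_pow (by omega)] at hq
    exact absurd hq (not_le.2 (by positivity))
  have m1 : (b + 2) ^ (c * d) ≤ (b + 2) ^ ((c + 18) * d) :=
    Nat.pow_le_pow_right (by omega) (Nat.mul_le_mul_right _ (by omega))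
  have m2 : ((b + 2) * k) ^ (c * d) ≤ ((b + 2) * k) ^ ((c + 18) * d) :=
    Nat.pow_le_pow_right (Nat.mul_pos (by omega) hk) (Nat.mul_le_mul_right _ (by omega))
  refine Vt.tbind' ?_
  rw [Tri_mapP]
  refine (h B e b d q k N X (L.obs.map fun o => e3 L o) hd hb hq hq' hk hk' he hN x2
    (fun x hx => ?_) (by simpa using x1) (fun T hT => ?_)
    ((Nat.pow_le_pow_right (by omega) (Nat.mul_le_mul_right _ (by omega))).trans hB)).bind ?_
  · obtain ⟨o, ho, rfl⟩ := List.mem_map.1 hx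
    obtain ⟨a1, a2⟩ := sc_le hI hL hcs ho
    exact ⟨a1, by simpa [e3, LV.a0, hL.N_eq] using Nat.mod_lt _ a2,
      by simpa [e3, LV.b0, hL.N_eq] using Nat.mod_lt _ a2⟩
  · refine (hL.ends T fun p hp => ?_).trans ?_
    · obtain ⟨x, hx, h1⟩ := hT p hp
      obtain ⟨o, ho, rfl⟩ := List.mem_map.1 hx
      exact ⟨o, ho, h1⟩
    · rw [List.length_map]
      have a := Nat.mul_le_mul_right G.length hJ2
      have a' := Nat.mul_le_mul_left J hv
      nlinarith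
  rintro ⟨Sk, Pi⟩ t ⟨hR, hs, ht⟩
  rw [List.length_map] at hR
  dsimp only at hR hs ⊢
  have hR' := rwOK_congr (es' := fun i => e3 L (obj L i)) hR (fun i hi => by
    simp [obj, List.getD_eq_getElem?_getD, List.getElem?_eq_getElem hi]) le_rfl le_rfl
  have s1 : Sk.length ≤ L.obs.length := by
    simpa using (List.subperm_of_subset hR.nd (l₂ := List.range L.obs.length) fun s hs =>
      List.mem_range.2 (hR.sub s hs).1).length_le
  have eo : (fun i => (L.obs.map fun o => o4 o).getD i (0, none, 0, 0)) =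
      fun i => o4 (obj L i) := funext fun i =>
    List.getD_map L.obs (⟨0, none, 0, none, 0, 0⟩ : Ob) (n := i) fun o => o4 o
  have eW : ∀ o, Wo (spk L.F.sp.get L.F.te.get) (o4 o) = L.F.W o := fun o => by
    simp only [Wo, o4, spk, Fo.W, hL.wk]; rfl
  refine Vt.of_tri (cn := true) ?_
  simp only [Tri_bind, Tri_mapP, Tri_ofListP, Tri_lenP, Tri_rangeP, List.length_map, eo]
  refine ⟨by omega, by omega, (hc ⟨B, true⟩ S L.F.sp L.F.te ⟨fun i => o4 (obj L i)⟩ Sk _ Pi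
    L.F.par.get (fun i => L.a0 (obj L i)) (fun i => L.b0 (obj L i)) k ((b + 2) ^ (c * d)) (2 ^ b)
    (fun a => (hL.fo a).imp And.left And.left) hL.sp_len (fun s hs => ?_) (fun s hs x hx => ?_)
    (fun o ho => ⟨hR.hops o (List.mem_range.1 ho), fun s hs =>
      (hR.skel o (List.mem_range.1 ho) s hs).1⟩) ?_ (by show _ ≤ B; omega)).mono ?_⟩
  · exact eW _ ▸ iw_iff.1 (hL.owalk _ (obj_mem (hR.sub s hs).1))
  · obtain ⟨y, hy, e⟩ := (hL.olen _ (obj_mem (hR.sub s hs).1)).2.2.2 x (eW _ ▸ hx)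
    obtain ⟨z, hz', rfl⟩ := List.mem_map.1 hy
    exact e ▸ hz z hz'
  · refine (Nat.mul_le_mul_right _ hk').trans (le_trans ?_ b1)
    rw [← pow_add]
    exact Nat.pow_le_pow_right (by omega) (by omega)
  rintro r t' ⟨⟨own, hC⟩, ht'⟩
  have p1 : (b + 2) ^ ((c + 18) * d) = (b + 2) ^ (c * d) * (b + 2) ^ (18 * d) := by ring
  refine ⟨Sk, Pi.get, own, rwOK_congr hR' (fun _ _ => rfl) m1 m2, hC.mono m1, ?_, ?_⟩
  · calc k * (7 * Sk.length) ^ 2 = 49 * (k * Sk.length ^ 2) := by ring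
      _ ≤ 49 * ((b + 2) ^ (c * d) * X) ^ 2 := Nat.mul_le_mul_left _ hs
      _ = ((b + 2) ^ (c * d) * (7 * (16 * J ^ 2)) * G.length) ^ 2 := by rw [hX]; ring
      _ ≤ _ := by
        rw [p1]
        exact Nat.pow_le_pow_left (Nat.mul_le_mul_right _ (Nat.mul_le_mul_left _ (by omega))) _
  · rw [List.length_range] at ht'
    rw [show ((b + 2) * k) ^ ((c + 18) * d) = ((b + 2) * k) ^ (c * d) * ((b + 2) * k) ^ (18 * d) by
      rw [← pow_add, add_mul c]]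
    refine mid_time hk q1 hJ (Nat.one_le_pow _ _ (by omega))
      (Nat.pow_le_pow_left (Nat.le_mul_of_pos_right _ hk) _) ?_ s1 x1 ht ht' (by omega)
    rw [mul_pow, mul_comm]
    exact Nat.mul_le_mul n3 (Nat.le_self_pow (by omega) _)

end Vale.Agent.P305X
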