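import Vale.Agent.P305X.Defs

/-!
# Compression of a level: the program
-/

namespace Vale.Agent.P305X

open Vale.Agent.P305E Vale.Agent.P305M Vale.Agent.P305Q Vale.Agent.P305Y

/-- The signed sum of a fast function. -/
def ssumP (v : ℕ → ℤ) (l : SW) : M ℤ :=
  .need (nsum (fun z => (v z).natAbs) l) (pay l.length (ssum v l))

/-- The reversed walk. -/
def revW (l : SW) : M SW := pay l.length (rev l)

@[simp] theorem Tri_ssumP {c : Cx} (v : ℕ → ℤ) (l : SW) (Q : ℤ → ℕ → Prop) :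
    Tri c (ssumP v l) Q ↔ nsum (fun z => (v z).natAbs) l ≤ c.B ∧ Q (ssum v l) l.length := by
  simp only [ssumP, Tri_need, Tri_pay]

@[simp] theorem Tri_revW {c : Cx} (l : SW) (Q : SW → ℕ → Prop) :
    Tri c (revW l) Q ↔ Q (rev l) l.length := Tri_pay _ _ _

/-- The compressed spoke as a walk. -/
def cw (sp : ℕ → List ℕ) (key : ℕ → Bool) (pid : ℕ → ℕ) (a : ℕ) : SW :=
  (csp sp key a).map fun y => (pid y, true)

/-- The walk along a route. -/
def Qo (T : ℕ → SW) (w : List (ℕ × Bool)) : SW :=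
  (w.map fun s => if s.2 = true then T s.1 else rev (T s.1)).flatten

/-- The new item for a walk that starts with `c`. -/
def mk (it : ℕ → RA) (c : ℕ × Bool) (w : SW) : RA :=
  (src it c, w.foldl (fun _ c => dst it c) (src it c), wlen it w, wg it w)

/-- One new item. -/
def addP (it : Arr RA) (sp : Arr (List ℕ)) (te : Arr (ℕ × Bool)) (key : Arr Bool)
    (s : Sto × Arr ℕ × List ℕ) (y : ℕ) : M (Sto × Arr ℕ × List ℕ) := do
  let t ← twP (fun w => !key.get w) (sp.get y).tail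
  let w ← mapP (fun a => te.get a) (y :: t)
  let l ← sumP (fun c => (it.get c.1).2.2.1) w
  let g ← ssumP (fun z => (it.get z).2.2.2) w
  let v ← foldP (fun _ c => dst it.get c) (src it.get (te.get y)) w
  let n ← num (s.1.2.2 + 1)
  pure ((s.1.1.set s.1.2.2 (src it.get (te.get y), v, l, g), s.1.2.1.set s.1.2.2 w, n),
    s.2.1.set y s.1.2.2, s.1.2.2 :: s.2.2)

/-- The compressed spoke. -/
def cwP (sp : Arr (List ℕ)) (key : Arr Bool) (pid : Arr ℕ) (a : ℕ) : M SW := do
  let l ← filterP (fun w => key.get w) (sp.get a)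
  mapP (fun y => (pid.get y, true)) l

/-- The compressed walk of an object. -/
def cWP (sp : Arr (List ℕ)) (key : Arr Bool) (pid : Arr ℕ) (o : O4) : M SW := do
  let a ← cwP sp key pid o.1
  let a' ← revW a
  let b ← cwP sp key pid o.2.2.1
  let c ← cwP sp key pid o.2.2.2
  let d ← appendP b c
  appendP a' (o.2.1.elim d fun e => e :: d)

/-- The walk along a route. -/
def QoP (T : Arr SW) (w : List (ℕ × Bool)) : M SW := do
  let l ← mapM' (fun s => if s.2 = true then pure (T.get s.1) else revW (T.get s.1)) w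
  flattenP l

/-- A table that is filled for the names of a list. -/
def tabP {β : Type} (d : β) (f : ℕ → M β) (l : List ℕ) : M (Arr β) :=
  foldM (fun T s => f s >>= fun w => pure (T.set s w)) (Arr.const d) l

/-- The program. -/
def compP (p : Sto × Arr (List ℕ) × Arr (ℕ × Bool) × Arr O4 × List ℕ × List ℕ ×
    Arr (List (ℕ × Bool))) : M (Sto × List ℕ × List ℕ × Arr SW) := do
  let tl ← mapP (fun s => [(p.2.2.2.1.get s).1, (p.2.2.2.1.get s).2.2.1, (p.2.2.2.1.get s).2.2.2])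
    p.2.2.2.2.1
  let ts ← flattenP tl
  let ks ← keysP p.2.1 ts
  let r ← foldM (addP p.1.1 p.2.1 p.2.2.1 ks.1) (p.1, Arr.const 0, []) ks.2
  let T ← tabP [] (fun s => cWP p.2.1 ks.1 r.2.1 (p.2.2.2.1.get s)) p.2.2.2.2.1
  let Q ← tabP [] (fun o => QoP T (p.2.2.2.2.2.2.get o)) p.2.2.2.2.2.1
  let e ← filterMapP (fun s => (p.2.2.2.1.get s).2.1.elim none fun c => some c.1) p.2.2.2.2.1
  let K ← appendP r.2.2 e
  pure (r.1, r.2.2, K, Q)

section impl
variable {α β : Type} [Rep α] [Rep β]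

theorem nsum_pre (v : ℕ → ℕ) {pre rest l : SW} {x : ℕ × Bool} (e : l = pre ++ x :: rest) :
    nsum v (pre ++ [x]) ≤ nsum v l := by
  rw [e]; simp only [nsum_append, nsum_cons, nsum_nil]; omega

@[fun_prop] theorem Impl.ssumP {v : α → ℕ → ℤ} {l : α → SW}
    (hv : Pure fun p : α × ℕ => v p.1 p.2) (hl : Pure l) : Impl fun a => ssumP (v a) (l a) := by
  have h : Impl fun a => foldM (fun s c =>
      inum (s + if c.2 = true then v a c.1 else -v a c.1)) 0 (l a) := by fun_prop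
  refine h.need_pay 2 fun B a _ _ _ hn => ?_
  refine (Tri.foldM (fun pre s t => s = ssum (v a) pre ∧ t = pre.length) (by simp) ?_).mono ?_
  · rintro pre x rest _ _ e ⟨rfl, rfl⟩
    have e1 : (ssum (v a) pre + if x.2 = true then v a x.1 else -v a x.1) =
        ssum (v a) (pre ++ [x]) := by cases h : x.2 <;> simp [h]
    rw [Tri_inum, e1]
    exact ⟨(natAbs_ssum _ _).trans ((nsum_pre _ e).trans hn), rfl, by simp⟩
  · rintro _ _ ⟨rfl, rfl⟩
    exact ⟨rfl, lg_slack _ 1 _ _ (by omega)⟩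

@[fun_prop] theorem Impl.revW {l : α → SW} (hl : Pure l) : Impl fun a => revW (l a) :=
  (show Impl fun a => foldP (fun acc (c : ℕ × Bool) => (c.1, !c.2) :: acc) [] (l a) by
    fun_prop).of_eq fun a => by
      simp only [foldP, P305X.revW, rev]
      congr 1
      rw [← List.foldl_map (f := fun c : ℕ × Bool => (c.1, !c.2)) (g := fun acc c => c :: acc)]
      simp

@[fun_prop] theorem Pure.src {it : α → Arr RA} {c : α → ℕ × Bool} (h1 : Pure it) (h2 : Pure c) :
    Pure fun a => src (it a).get (c a) := by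
  unfold P305Y.src
  fun_prop

@[fun_prop] theorem Pure.dst {it : α → Arr RA} {c : α → ℕ × Bool} (h1 : Pure it) (h2 : Pure c) :
    Pure fun a => dst (it a).get (c a) := by
  unfold P305Y.dst
  fun_prop

@[fun_prop] theorem Impl.addP {it : α → Arr RA} {sp : α → Arr (List ℕ)}
    {te : α → Arr (ℕ × Bool)} {key : α → Arr Bool} {s : α → Sto × Arr ℕ × List ℕ} {y : α → ℕ}
    (h1 : Pure it) (h2 : Pure sp) (h3 : Pure te) (h4 : Pure key) (h5 : Pure s) (h6 : Pure y) :
    Impl fun a => addP (it a) (sp a) (te a) (key a) (s a) (y a) := by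
  unfold P305X.addP
  fun_prop

@[fun_prop] theorem Impl.cwP {sp : α → Arr (List ℕ)} {key : α → Arr Bool} {pid : α → Arr ℕ}
    {y : α → ℕ} (h2 : Pure sp) (h4 : Pure key) (h5 : Pure pid) (h6 : Pure y) :
    Impl fun a => cwP (sp a) (key a) (pid a) (y a) := by
  unfold P305X.cwP
  fun_prop

@[fun_prop] theorem Impl.cWP {sp : α → Arr (List ℕ)} {key : α → Arr Bool} {pid : α → Arr ℕ}
    {y : α → O4} (h2 : Pure sp) (h4 : Pure key) (h5 : Pure pid) (h6 : Pure y) :
    Impl fun a => cWP (sp a) (key a) (pid a) (y a) := by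
  unfold P305X.cWP
  fun_prop

@[fun_prop] theorem Impl.QoP {T : α → Arr SW} {w : α → List (ℕ × Bool)} (h1 : Pure T)
    (h2 : Pure w) : Impl fun a => QoP (T a) (w a) := by
  unfold P305X.QoP
  fun_prop

@[fun_prop] theorem Impl.tabP {d : α → β} {f : α → ℕ → M β} {l : α → List ℕ} (h1 : Pure d)
    (h2 : Impl fun p : α × ℕ => f p.1 p.2) (h3 : Pure l) :
    Impl fun a => tabP (d a) (f a) (l a) := by
  unfold P305X.tabP
  fun_prop

theorem impl_compP : Impl compP := by
  unfold compP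
  fun_prop

end impl

/-! ### Walks -/

variable {sp : ℕ → List ℕ} {par pid : ℕ → ℕ} {key : ℕ → Bool} {te : ℕ → ℕ × Bool}
  {it it' : ℕ → RA}

theorem wlk_foldl {u v : ℕ} {w : SW} (h : Wlk it u w v) :
    w.foldl (fun _ c => dst it c) u = v := by
  induction w generalizing u with
  | nil => exact h
  | cons c w ih => exact ih h.2

theorem mk_ends {u v : ℕ} {c : ℕ × Bool} {w : SW} (h : Wlk it u (c :: w) v) :
    (mk it c (c :: w)).1 = u ∧ (mk it c (c :: w)).2.1 = v :=
  ⟨h.1, wlk_foldl (w := c :: w) ⟨rfl, h.2⟩⟩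

theorem cw_walk (h : Fo sp par) {x v : ℕ} (hx : sp x ≠ [] → key x = true) :
    (∀ y ∈ csp sp key x, it' (pid y) = mk it (te y) ((seg sp key y).map te)) →
    ∀ u, Wlk it u (spk sp te x) v → Wlk it' u (cw sp key pid x) v ∧
      wlen it' (cw sp key pid x) = wlen it (spk sp te x) := by
  refine h.key_ind (P := fun x =>
    (∀ y ∈ csp sp key x, it' (pid y) = mk it (te y) ((seg sp key y).map te)) →
    ∀ u, Wlk it u (spk sp te x) v → Wlk it' u (cw sp key pid x) v ∧
      wlen it' (cw sp key pid x) = wlen it (spk sp te x)) (fun x e _ u hw => ?_)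
    (fun y hy hk ih hg u hw => ?_) hx
  · simp only [cw, csp_nil e, spk, e, List.map_nil] at hw ⊢
    exact ⟨hw, rfl⟩
  · rw [h.csp_cons hy hk] at hg
    have e : spk sp te y = (seg sp key y).map te ++ spk sp te (nxt sp par key y) := by
      rw [spk, h.seg_append (key := key) hy, List.map_append]; rfl
    have e' : cw sp key pid y = (pid y, true) :: cw sp key pid (nxt sp par key y) := by
      rw [cw, h.csp_cons hy hk]; rfl
    rw [e] at hw ⊢
    obtain ⟨m, h1, h2⟩ := wlk_append.1 hw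
    obtain ⟨a1, a2⟩ := ih (fun z hz => hg z (List.mem_cons_of_mem _ hz)) m h2
    have a3 := hg y List.mem_cons_self
    obtain ⟨b1, b2⟩ := mk_ends (c := te y) h1
    rw [e', wlen_cons, wlen_append, a2]
    refine ⟨⟨?_, ?_⟩, by rw [a3]; rfl⟩
    · show (it' (pid y)).1 = u
      rw [a3]; exact b1
    · show Wlk it' (it' (pid y)).2.1 _ _
      rw [a3]; exact b2 ▸ a1

theorem mem_Wo {w : ℕ → SW} {o : O4} {c : ℕ × Bool} (h : c ∈ Wo w o) :
    o.2.1 = some c ∨ ∃ a, (a = o.1 ∨ a = o.2.2.1 ∨ a = o.2.2.2) ∧ ∃ d, (c.1, d) ∈ w a := by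
  simp only [Wo, List.mem_append, mem_rev, Option.mem_toList] at h
  rcases h with h | h | h | h
  · exact Or.inr ⟨_, Or.inl rfl, _, h⟩
  · exact Or.inl h
  · exact Or.inr ⟨_, Or.inr (Or.inl rfl), _, h⟩
  · exact Or.inr ⟨_, Or.inr (Or.inr rfl), _, h⟩

theorem Wo_mem {w : ℕ → SW} {o : O4} {a : ℕ} (ha : a = o.1 ∨ a = o.2.2.1 ∨ a = o.2.2.2)
    {c : ℕ × Bool} (h : c ∈ w a) : ∃ d, (c.1, d) ∈ Wo w o := by
  simp only [Wo, List.mem_append, mem_rev]
  rcases ha with rfl | rfl | rfl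
  · exact ⟨!c.2, Or.inl (by simpa using h)⟩
  · exact ⟨c.2, Or.inr (Or.inr (Or.inl h))⟩
  · exact ⟨c.2, Or.inr (Or.inr (Or.inr h))⟩

theorem ids_mem {o : O4} {a x : ℕ} (ha : a = o.1 ∨ a = o.2.2.1 ∨ a = o.2.2.2) (h : x ∈ sp a) :
    x ∈ ids sp o := by
  simp only [ids, List.mem_append]
  rcases ha with rfl | rfl | rfl <;> simp [h]

theorem Wo_spoke {w : ℕ → SW} {o : O4} {u v a : ℕ} (h : Wlk it u (Wo w o) v)
    (ha : a = o.1 ∨ a = o.2.2.1 ∨ a = o.2.2.2) : ∃ x y, Wlk it x (w a) y := by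
  simp only [Wo, wlk_append] at h
  obtain ⟨x1, h1, x2, -, x3, h3, h4⟩ := h
  rcases ha with rfl | rfl | rfl
  · have := h1.rev
    refine ⟨x1, u, ?_⟩
    rwa [show rev (rev (w o.1)) = w o.1 by simp [rev, Function.comp_def]] at this
  · exact ⟨_, _, h3⟩
  · exact ⟨_, _, h4⟩

theorem rev_rev (w : SW) : rev (rev w) = w := by simp [rev, Function.comp_def]

theorem Wo_walk {w w' : ℕ → SW} {o : O4} {u v : ℕ} (h : Wlk it u (Wo w o) v)
    (hw : ∀ a, a = o.1 ∨ a = o.2.2.1 ∨ a = o.2.2.2 → ∀ x y, Wlk it x (w a) y →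
      Wlk it' x (w' a) y ∧ wlen it' (w' a) = wlen it (w a))
    (he : ∀ c, o.2.1 = some c → it' c.1 = it c.1) :
    Wlk it' u (Wo w' o) v ∧ wlen it' (Wo w' o) = wlen it (Wo w o) := by
  simp only [Wo, wlk_append, wlen_append, wlen_rev] at h ⊢
  obtain ⟨x1, h1, x2, h2, x3, h3, h4⟩ := h
  obtain ⟨a1, b1⟩ := hw _ (Or.inl rfl) _ _ (rev_rev (w o.1) ▸ h1.rev)
  obtain ⟨a3, b3⟩ := hw _ (Or.inr (Or.inl rfl)) _ _ h3
  obtain ⟨a4, b4⟩ := hw _ (Or.inr (Or.inr rfl)) _ _ h4
  refine ⟨⟨x1, a1.rev, x2, h2.congr fun c hc => he c (Option.mem_toList.1 hc), x3, a3, a4⟩, ?_⟩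
  rw [b1, b3, b4]
  cases e : o.2.1 with
  | none => rfl
  | some c => simp [he c e]

theorem Qo_cons (T : ℕ → SW) (s : ℕ × Bool) (w : List (ℕ × Bool)) :
    Qo T (s :: w) = (if s.2 = true then T s.1 else rev (T s.1)) ++ Qo T w := rfl

theorem Qo_walk {T : ℕ → SW} {A B : ℕ → ℕ} {w : List (ℕ × Bool)} {u v : ℕ}
    (hT : ∀ s ∈ w, Wlk it (A s.1) (T s.1) (B s.1))
    (h : P305R.Walk (fun s => (A s, B s)) u w v) : Wlk it u (Qo T w) v := by
  induction w generalizing u with
  | nil => exact h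
  | cons s w ih =>
    rw [Qo_cons]
    refine Wlk.append ?_ (ih (fun s hs => hT s (by simp [hs])) h.2)
    have := hT s (by simp)
    rw [← h.1]
    unfold P305R.src P305R.dst
    split_ifs
    · exact this
    · exact this.rev

theorem Qo_wlen (T : ℕ → SW) (w : List (ℕ × Bool)) :
    wlen it (Qo T w) = nsum (fun s => wlen it (T s)) w := by
  induction w with
  | nil => rfl
  | cons s w ih =>
    rw [Qo_cons, wlen_append, ih, nsum_cons]
    split_ifs <;> simp

theorem Qo_length {T : ℕ → SW} {w : List (ℕ × Bool)} {m : ℕ}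
    (h : ∀ s ∈ w, (T s.1).length ≤ m) : (Qo T w).length ≤ w.length * m := by
  induction w with
  | nil => simp [Qo]
  | cons s w ih =>
    have a := ih fun s hs => h s (by simp [hs])
    have b := h s (by simp)
    rw [Qo_cons, List.length_append, List.length_cons, Nat.succ_mul]
    split_ifs
    · omega
    · rw [length_rev]; omega

theorem mem_Qo {T : ℕ → SW} {w : List (ℕ × Bool)} {c : ℕ × Bool} (h : c ∈ Qo T w) :
    ∃ s ∈ w, ∃ d, (c.1, d) ∈ T s.1 := by
  simp only [Qo, List.mem_flatten, List.mem_map] at h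
  obtain ⟨_, ⟨s, hs, rfl⟩, h⟩ := h
  split_ifs at h
  · exact ⟨s, hs, _, h⟩
  · exact ⟨s, hs, _, mem_rev.1 h⟩

theorem nsum_le_mul {v : ℕ → ℕ} {l : SW} {L : ℕ} (h : ∀ c ∈ l, v c.1 ≤ L) :
    nsum v l ≤ l.length * L := by
  induction l with
  | nil => simp
  | cons c l ih =>
    have a := ih fun s hs => h s (by simp [hs])
    have b := h c (by simp)
    rw [nsum_cons, List.length_cons, Nat.succ_mul]
    omega

theorem nsum_congr {v v' : ℕ → ℕ} {l : SW} (h : ∀ c ∈ l, v c.1 = v' c.1) :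
    nsum v l = nsum v' l :=
  le_antisymm (nsum_le fun c hc => (h c hc).le) (nsum_le fun c hc => (h c hc).ge)

/-! ### Triples -/

variable {c : Cx}

theorem tabP_tri {β : Type} {d : β} {f : ℕ → M β} {g : ℕ → β} {l : List ℕ} {T : ℕ}
    (h : ∀ s ∈ l, Tri c (f s) fun w t => w = g s ∧ t ≤ T) :
    Tri c (tabP d f l) fun A t => (∀ s ∈ l, A.get s = g s) ∧ t ≤ l.length * (T + 1) := by
  refine Tri.foldM (fun pre (A : Arr β) t => (∀ s ∈ pre, A.get s = g s) ∧
    t ≤ pre.length * (T + 1)) (by simp) ?_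
  intro pre x rest A t e hI
  refine (h x (by simp [e])).bind ?_
  rintro _ t' ⟨rfl, ht⟩
  refine ⟨fun s hs => ?_, ?_⟩
  · rw [Arr.get_set]
    split_ifs with q
    · rw [q]
    · exact hI.1 s (by simpa [q] using hs)
  · have := hI.2
    simp only [List.length_append, List.length_singleton]
    nlinarith

theorem cw_length (x : ℕ) : (cw sp key pid x).length ≤ (sp x).length := by
  rw [cw, List.length_map]
  exact List.length_filter_le _ _

theorem cWP_tri {sp : Arr (List ℕ)} {key : Arr Bool} {pid : Arr ℕ} {k : ℕ}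
    (hk : ∀ a, (sp.get a).length ≤ k) (o : O4) :
    Tri c (cWP sp key pid o) fun w t => w = Wo (cw sp.get key.get pid.get) o ∧ t ≤ 9 * k := by
  have h : ∀ a, ((sp.get a).filter fun w => key.get w).length ≤ k := fun a =>
    (List.length_filter_le _ _).trans (hk a)
  have a1 := h o.1
  have a2 := h o.2.2.1
  have a3 := h o.2.2.2
  have b1 := hk o.1
  have b2 := hk o.2.2.1
  have b3 := hk o.2.2.2
  simp only [cWP, cwP, Tri_bind, Tri_filterP, Tri_mapP, Tri_revW, Tri_appendP, List.length_map,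
    length_rev]
  refine ⟨?_, by omega⟩
  unfold Wo cw csp
  cases o.2.1 <;> rfl

theorem QoP_tri {T : Arr SW} {w : List (ℕ × Bool)} {m : ℕ}
    (h : ∀ s ∈ w, (T.get s.1).length ≤ m) :
    Tri c (QoP T w) fun l t => l = Qo T.get w ∧ t ≤ w.length * (2 * m + 3) := by
  refine (Tri.mapM' (P := fun s y => y = if s.2 = true then T.get s.1 else rev (T.get s.1))
    (T := fun _ => m) fun s hs => ?_).bind fun l t hl => ?_
  · have := h s hs
    by_cases q : s.2 = true <;> simp [q, this]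
  · have e : l = w.map fun s => if s.2 = true then T.get s.1 else rev (T.get s.1) := by
      have := hl.1
      clear hl h
      induction this with
      | nil => rfl
      | cons h1 _ ih => rw [List.map_cons, h1, ih]
    have a := Qo_length h
    have b := hl.2
    subst e
    simp only [List.map_const', List.sum_replicate, smul_eq_mul] at b
    simp only [Tri_flattenP, List.length_map]
    refine ⟨rfl, ?_⟩
    unfold Qo at a
    nlinarith

/-- The invariant of the creation of the new items. -/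
structure AddI (S : Sto) (sp : ℕ → List ℕ) (te : ℕ → ℕ × Bool) (key : ℕ → Bool) (pre : List ℕ)
    (s : Sto × Arr ℕ × List ℕ) : Prop where
  n : s.1.2.2 = S.2.2 + pre.length
  old : ∀ z < S.2.2, s.1.1.get z = S.1.get z ∧ s.1.2.1.get z = S.2.1.get z
  new : ∀ z, z ∈ s.2.2 ↔ S.2.2 ≤ z ∧ z < s.1.2.2
  eq : s.2.2 = (pre.map s.2.1.get).reverse
  nodup : s.2.2.Nodup
  it : ∀ y ∈ pre, s.1.1.get (s.2.1.get y) = mk S.1.get (te y) ((seg sp key y).map te) ∧
    s.1.2.1.get (s.2.1.get y) = (seg sp key y).map te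

theorem addP_tri {S : Sto} {sp : Arr (List ℕ)} {te : Arr (ℕ × Bool)} {key : Arr Bool}
    {ks : List ℕ} {k L : ℕ} (hn : ks.Nodup) (hB : k * L ≤ c.B) (hB' : S.2.2 + ks.length ≤ c.B)
    (h : ∀ y ∈ ks, (sp.get y).length ≤ k ∧ (seg sp.get key.get y).length ≤ k ∧
      ∀ a ∈ seg sp.get key.get y, (S.1.get (te.get a).1).2.2.1 ≤ L ∧
        (S.1.get (te.get a).1).2.2.2.natAbs ≤ L) :
    Tri c (foldM (addP S.1 sp te key) (S, Arr.const 0, []) ks) fun s t =>
      AddI S sp.get te.get key.get ks s ∧ t ≤ ks.length * (5 * k + 1) := by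
  refine Tri.foldM (fun pre s t => AddI S sp.get te.get key.get pre s ∧
    t ≤ pre.length * (5 * k + 1))
    ⟨⟨rfl, fun _ _ => ⟨rfl, rfl⟩, by simp, rfl, List.nodup_nil, by simp⟩, by simp⟩ ?_
  rintro pre y rest s t e ⟨hI, ht⟩
  obtain ⟨h1, h2, h3⟩ := h y (by simp [e])
  have hy : y ∉ pre := by
    rw [e] at hn
    exact fun q => (List.nodup_append.1 hn).2.2 y q y (by simp) rfl
  have e1 : (y :: (sp.get y).tail.takeWhile fun w => !key.get w) = seg sp.get key.get y := rfl
  have hm : ∀ v : ℕ → ℕ, (∀ a ∈ seg sp.get key.get y, v (te.get a).1 ≤ L) →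
      nsum v ((seg sp.get key.get y).map te.get) ≤ c.B := fun v hv => by
    refine (nsum_le_mul (L := L) fun x hx => ?_).trans (le_trans ?_ hB)
    · obtain ⟨a, ha, rfl⟩ := List.mem_map.1 hx
      exact hv a ha
    · rw [List.length_map]
      exact Nat.mul_le_mul_right _ h2
  have hl : pre.length + 1 ≤ ks.length := by simp [e]
  have hn' := hI.n
  have hp : ∀ x ∈ pre, (s.2.1.set y s.1.2.2).get x = s.2.1.get x := fun x hx =>
    Arr.get_set_ne _ (fun q : x = y => hy (q ▸ hx)) _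
  simp only [addP, Tri_bind, Tri_twP, Tri_mapP, Tri_sumP, Tri_ssumP, Tri_foldP, Tri_num, Tri_pure,
    e1, List.length_map, List.length_tail]
  refine ⟨hm (fun z => (S.1.get z).2.2.1) fun a ha => (h3 a ha).1,
    hm (fun z => (S.1.get z).2.2.2.natAbs) fun a ha => (h3 a ha).2, by omega,
    ⟨?_, fun z hz => ?_, fun z => ?_, ?_, ?_, fun x hx => ?_⟩, ?_⟩
  · simp only [List.length_append, List.length_singleton]; omega
  · have : z ≠ s.1.2.2 := by omega
    simp only [Arr.get_set_ne _ this]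
    exact hI.old z hz
  · simp only [List.mem_cons, hI.new]; omega
  · simp only [List.map_append, List.map_singleton, Arr.get_set_self, List.reverse_append,
      List.reverse_singleton, List.singleton_append, List.map_congr_left hp, ← hI.eq]
  · exact List.nodup_cons.2 ⟨fun q => by have := (hI.new _).1 q; omega, hI.nodup⟩
  · rcases List.mem_append.1 hx with q | q
    · have a : s.2.1.get x ∈ s.2.2 := by
        rw [hI.eq]; exact List.mem_reverse.2 (List.mem_map_of_mem q)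
      have b : s.2.1.get x ≠ s.1.2.2 := by have := (hI.new _).1 a; omega
      simp only [hp x q, Arr.get_set_ne _ b]
      exact hI.it x q
    · obtain rfl := List.mem_singleton.1 q
      simp only [Arr.get_set_self]
      exact ⟨rfl, trivial⟩
  · simp only [List.length_append, List.length_singleton]
    have : (sp.get y).length - 1 ≤ k := by omega
    nlinarith

/-- **The block COMP.** -/
theorem comp : COMP := by
  refine ⟨compP, impl_compP, fun c S sp te ob Sk nms Pi par A B k γ L hF hk hW hL hP hB hB' => ?_⟩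
  simp only [compP, Tri_bind, Tri_mapP, Tri_flattenP]
  set ts := (Sk.map fun s => [(ob.get s).1, (ob.get s).2.2.1, (ob.get s).2.2.2]).flatten with hts
  have tl : ts.length = 3 * Sk.length := by
    simp [hts, List.length_flatten, Function.comp_def, mul_comm]
  have tm : ∀ x, x ∈ ts ↔ ∃ s ∈ Sk,
      x = (ob.get s).1 ∨ x = (ob.get s).2.2.1 ∨ x = (ob.get s).2.2.2 := fun x => by
    simp [hts]
  refine (keysP_tri hF fun x _ => hk x).mono ?_
  rintro ⟨key, ks⟩ t1 ⟨hK, ht1⟩
  dsimp only at hK ⊢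
  have kl := hK.len
  have hseg : ∀ y ∈ ks, ∃ s ∈ Sk, ∃ x, (x = (ob.get s).1 ∨ x = (ob.get s).2.2.1 ∨
      x = (ob.get s).2.2.2) ∧ y ∈ sp.get x := fun y hy => by
    obtain ⟨x, hx, h⟩ := hK.sub y hy
    obtain ⟨s, hs, h'⟩ := (tm x).1 hx
    exact ⟨s, hs, x, h', h⟩
  refine (addP_tri (k := k) (L := L) hK.nodup hB (by omega) fun y hy => ?_).mono ?_
  · have n1 := hK.ne_nil hF hy
    refine ⟨hk y, (hF.seg_length n1).trans (hk y), fun a ha => ?_⟩
    obtain ⟨s, hs, x, h1, h2⟩ := hseg y hy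
    obtain ⟨d, hd⟩ := Wo_mem (w := spk sp.get te.get) h1
      (List.mem_map_of_mem (hF.trans h2 (hF.seg_sub n1 ha)))
    exact (hL s hs _ hd).2
  rintro ⟨S', pid, P⟩ t2 ⟨hI, ht2⟩
  obtain ⟨i1, i2, i3, i4, i5, i6⟩ := hI
  dsimp only at i1 i2 i3 i4 i5 i6 ⊢
  refine (tabP_tri fun s _ => cWP_tri hk (ob.get s)).mono ?_
  rintro T t3 ⟨hT, ht3⟩
  have Tl : ∀ s ∈ Sk, (T.get s).length ≤ 3 * k + 1 := fun s hs => by
    have h : ∀ a, (cw sp.get key.get pid.get a).length ≤ k := fun a => (cw_length a).trans (hk a)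
    have a1 := h (ob.get s).1
    have a2 := h (ob.get s).2.2.1
    have a3 := h (ob.get s).2.2.2
    have a4 : (ob.get s).2.1.toList.length ≤ 1 := by cases (ob.get s).2.1 <;> simp
    simp only [hT s hs, Wo, List.length_append, length_rev]
    omega
  refine (tabP_tri (T := γ * (2 * (3 * k + 1) + 3)) (g := fun o => Qo T.get (Pi.get o))
    fun o ho => (QoP_tri fun s hs => Tl _ ((hP o ho).2 s hs)).mono fun l t h =>
      ⟨h.1, h.2.trans (Nat.mul_le_mul_right _ (hP o ho).1)⟩).mono ?_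
  rintro Q t4 ⟨hQ, ht4⟩
  have Pl : P.length = ks.length := by simp [i4]
  have Pm : ∀ z, z ∈ P ↔ ∃ y ∈ ks, pid.get y = z := fun z => by simp [i4]
  have inj : ∀ y ∈ ks, ∀ y' ∈ ks, pid.get y = pid.get y' → y = y' :=
    List.inj_on_of_nodup_map (by rwa [i4, List.nodup_reverse] at i5)
  obtain ⟨own, ho⟩ : ∃ own : ℕ → List ℕ, ∀ y ∈ ks, own (pid.get y) = seg sp.get key.get y := by
    classical
    refine ⟨fun z => if h : ∃ y ∈ ks, pid.get y = z then seg sp.get key.get h.choose else [],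
      fun y hy => ?_⟩
    have h : ∃ y' ∈ ks, pid.get y' = pid.get y := ⟨y, hy, rfl⟩
    simp only [dif_pos h]
    rw [inj _ h.choose_spec.1 y hy h.choose_spec.2]
  have TW : ∀ s ∈ Sk, Wlk S'.1.get (A s) (T.get s) (B s) ∧
      wlen S'.1.get (T.get s) = wlen S.1.get (Wo (spk sp.get te.get) (ob.get s)) := fun s hs => by
    rw [hT s hs]
    refine Wo_walk (hW s hs) (fun a ha x y hw => cw_walk hF (hK.term' ((tm a).2 ⟨s, hs, ha⟩))
      (fun y hy => (i6 y (hK.csp_sub hy)).1) x hw) fun e he => (i2 _ (hL s hs e ?_).1).1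
    simp [Wo, he]
  have Tm : ∀ s ∈ Sk, ∀ x ∈ T.get s, (x.1 ∈ P ∧ ∀ a ∈ own x.1, a ∈ ids sp.get (ob.get s)) ∨
      (ob.get s).2.1 = some x := fun s hs x hx => by
    rw [hT s hs] at hx
    rcases mem_Wo hx with h | ⟨a, ha, d, h⟩
    · exact Or.inr h
    · obtain ⟨y, hy, e⟩ := List.mem_map.1 h
      have e' : pid.get y = x.1 := congrArg Prod.fst e
      have hy' := hK.csp_sub hy
      refine Or.inl ⟨(Pm _).2 ⟨y, hy', e'⟩, fun b hb => ?_⟩
      rw [← e', ho y hy'] at hb
      exact ids_mem ha (hF.trans (List.mem_filter.1 hy).1 (hF.seg_sub (hK.ne_nil hF hy') hb))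
  have El := List.length_filterMap_le
    (fun s => (ob.get s).2.1.elim none fun c => some c.1) Sk
  simp only [Tri_filterMapP, Tri_appendP, Tri_pure]
  refine ⟨⟨own, by omega, by omega, i2, i3, i5, fun z hz => ?_, fun z hz => ?_, ?_,
    fun z hz => ?_, by simp only [List.length_append]; omega, fun o ho u v hw => ?_,
    fun o ho x hx => ?_, fun o ho => ?_, fun o ho => ?_, fun o ho x hx => ?_⟩, ?_⟩
  · obtain ⟨y, hy, rfl⟩ := (Pm z).1 hz
    have n1 := hK.ne_nil hF hy
    obtain ⟨s, hs, x, h1, h2⟩ := hseg y hy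
    obtain ⟨u, v, h3⟩ := Wo_spoke (hW s hs) h1
    obtain ⟨a, ea⟩ := hF.split h2
    rw [spk, ea, hF.seg_append (key := key.get) n1, List.map_append, List.map_append] at h3
    obtain ⟨u', -, h4⟩ := wlk_append.1 h3
    obtain ⟨v', h5, -⟩ := wlk_append.1 h4
    obtain ⟨b1, b2⟩ := mk_ends (c := te.get y) h5
    rw [ho y hy, (i6 y hy).1, (i6 y hy).2]
    exact ⟨rfl, by simp [seg], (hF.seg_length n1).trans (hk y), b1 ▸ b2 ▸ h5, rfl, rfl⟩
  · obtain ⟨y, hy, rfl⟩ := (Pm z).1 hz
    obtain ⟨s, hs, x, h1, h2⟩ := hseg y hy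
    exact ⟨s, hs, fun a ha => ids_mem h1
      (hF.trans h2 (hF.seg_sub (hK.ne_nil hF hy) (ho y hy ▸ ha)))⟩
  · rw [List.nodup_flatMap]
    refine ⟨fun z hz => ?_, i5.pairwise_of_forall_ne fun z hz z' hz' hne a ha ha' => hne ?_⟩
    · obtain ⟨y, hy, rfl⟩ := (Pm z).1 hz
      have := hF.nodup y
      rw [hF.seg_append (key := key.get) (hK.ne_nil hF hy)] at this
      rw [ho y hy]
      exact this.of_append_left
    · obtain ⟨y, hy, rfl⟩ := (Pm z).1 hz
      obtain ⟨y', hy', rfl⟩ := (Pm z').1 hz'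
      rw [hK.seg_inj hF hy hy' (ho y hy ▸ ha) (ho y' hy' ▸ ha')]
  · refine (List.mem_append.1 hz).imp_right fun h => ?_
    obtain ⟨s, hs, e⟩ := List.mem_filterMap.1 h
    cases e' : (ob.get s).2.1 with
    | none => simp [e'] at e
    | some x =>
      obtain rfl : x.1 = z := by simpa [e'] using e
      exact ⟨s, hs, x.2, e'⟩
  · rw [hQ o ho]
    exact Qo_walk (fun s hs => (TW _ ((hP o ho).2 s hs)).1) hw
  · rw [hQ o ho] at hx
    obtain ⟨s, hs, d, h⟩ := mem_Qo hx
    have hs' := (hP o ho).2 s hs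
    rcases Tm _ hs' _ h with h | h
    · exact List.mem_append_left _ h.1
    · exact List.mem_append_right _ (List.mem_filterMap.2 ⟨s.1, hs', by simp [h]⟩)
  · rw [hQ o ho]
    exact (Qo_length fun s hs => Tl _ ((hP o ho).2 s hs)).trans
      (Nat.mul_le_mul_right _ (hP o ho).1)
  · rw [hQ o ho, Qo_wlen]
    exact nsum_congr fun s hs => (TW _ ((hP o ho).2 s hs)).2
  · rw [hQ o ho] at hx
    obtain ⟨s, hs, d, h⟩ := mem_Qo hx
    exact ⟨s, hs, (Tm _ ((hP o ho).2 s hs) _ h).imp_right fun h => ⟨d, h⟩⟩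
  · have a1 : t2 ≤ 6 * Sk.length * (5 * k + 1) := ht2.trans (Nat.mul_le_mul_right _ (by omega))
    rw [tl] at ht1
    simp only [List.length_map, tl]
    nlinarith [Nat.zero_le (k * Sk.length), Nat.zero_le (k * γ * nms.length),
      Nat.zero_le (γ * nms.length), Nat.zero_le (k * nms.length)]

end Vale.Agent.P305X
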