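import Vale.Agent.P305E.Arr

/-!
# Compression of spokes: keys and segments
-/

namespace Vale.Agent.P305X

open Vale.Agent.P305E

/-- The spokes of a forest: the list of the vertices on the way up, without the last one. -/
def Fo (sp : ℕ → List ℕ) (par : ℕ → ℕ) : Prop := ∀ x, sp x = [] ∨ sp x = x :: sp (par x)

variable {sp : ℕ → List ℕ} {par : ℕ → ℕ}

theorem Fo.cons (h : Fo sp par) {x w : ℕ} {l : List ℕ} (e : sp x = w :: l) :
    w = x ∧ l = sp (par x) := by
  rcases h x with h | h
  · simp [h] at e
  · rw [h] at e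
    exact ⟨(List.cons.inj e).1.symm, (List.cons.inj e).2.symm⟩

/-- The end of a spoke that starts at `w` is the spoke of `w`. -/
theorem Fo.suffix (h : Fo sp par) : ∀ {a : List ℕ} {x w : ℕ} {l : List ℕ},
    sp x = a ++ w :: l → sp w = w :: l
  | [], x, w, l, e => by
    obtain ⟨rfl, -⟩ := h.cons e
    exact e
  | _ :: a, x, w, l, e => h.suffix (a := a) (h.cons e).2.symm

theorem Fo.ne_nil (h : Fo sp par) {x w : ℕ} (hw : w ∈ sp x) : sp w = w :: sp (par w) := by
  obtain ⟨a, l, e⟩ := List.append_of_mem hw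
  have := h.suffix e
  rw [this, (h.cons this).2]

theorem Fo.split (h : Fo sp par) {x w : ℕ} (hw : w ∈ sp x) : ∃ a, sp x = a ++ sp w := by
  obtain ⟨a, l, e⟩ := List.append_of_mem hw
  exact ⟨a, by rw [h.suffix e, e]⟩

theorem Fo.trans (h : Fo sp par) {x w v : ℕ} (hw : w ∈ sp x) (hv : v ∈ sp w) : v ∈ sp x := by
  obtain ⟨a, e⟩ := h.split hw
  simp [e, hv]

theorem Fo.length_le (h : Fo sp par) {x w : ℕ} (hw : w ∈ sp x) :
    (sp w).length ≤ (sp x).length := by
  obtain ⟨a, e⟩ := h.split hw
  simp [e]

/-- Two vertices of a spoke with spokes of the same length are equal. -/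
theorem Fo.eq_of_length (h : Fo sp par) {x c c' : ℕ} (hc : c ∈ sp x) (hc' : c' ∈ sp x)
    (e : (sp c).length = (sp c').length) : c = c' := by
  obtain ⟨a, ea⟩ := h.split hc
  obtain ⟨a', ea'⟩ := h.split hc'
  have := (List.append_inj' (ea.symm.trans ea') e).2
  rw [h.ne_nil hc, h.ne_nil hc'] at this
  exact (List.cons.inj this).1

theorem Fo.nodup (h : Fo sp par) (x : ℕ) : (sp x).Nodup := by
  induction hn : (sp x).length generalizing x with
  | zero => rw [List.length_eq_zero_iff.1 hn]; exact List.nodup_nil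
  | succ n ih =>
    rcases h x with e | e
    · rw [e]; exact List.nodup_nil
    · have h1 : (sp (par x)).length = n := by rw [e] at hn; simpa using hn
      rw [e]
      refine List.nodup_cons.2 ⟨fun hx => ?_, ih _ h1⟩
      have := h.length_le hx
      omega

/-- The properties of the set of keys for the terminals `ts`. -/
structure Keys (sp : ℕ → List ℕ) (par : ℕ → ℕ) (ts : List ℕ) (key : ℕ → Bool) (ks : List ℕ) :
    Prop where
  mem : ∀ w, key w = true ↔ w ∈ ks
  nodup : ks.Nodup
  len : ks.length ≤ 2 * ts.length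
  sub : ∀ w ∈ ks, ∃ x ∈ ts, w ∈ sp x
  term : ∀ x ∈ ts, sp x ≠ [] → x ∈ ks
  br : ∀ x ∈ ts, ∀ x' ∈ ts, ∀ c ∈ sp x, ∀ c' ∈ sp x', par c = par c' → sp (par c) ≠ [] →
    c = c' ∨ par c ∈ ks

/-- One more key. -/
def addK (s : Arr Bool × List ℕ) (o : Option ℕ) : Arr Bool × List ℕ :=
  o.elim s fun w => if s.1.get w = true then s else (s.1.set w true, w :: s.2)

theorem addK_spec {s : Arr Bool × List ℕ} (o : Option ℕ) (h1 : ∀ w, s.1.get w = true ↔ w ∈ s.2)
    (h2 : s.2.Nodup) : (∀ w, (addK s o).1.get w = true ↔ w ∈ (addK s o).2) ∧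
      (addK s o).2.Nodup ∧ (addK s o).2.length ≤ s.2.length + 1 ∧
      ∀ w, w ∈ (addK s o).2 ↔ w ∈ s.2 ∨ o = some w := by
  cases o with
  | none => exact ⟨h1, h2, by simp [addK], by simp [addK]⟩
  | some v =>
    simp only [addK, Option.elim]
    split_ifs with hv
    · refine ⟨h1, h2, by omega, fun w => ⟨Or.inl, ?_⟩⟩
      rintro (h | h)
      · exact h
      · obtain rfl := Option.some.inj h
        exact (h1 _).1 hv
    · refine ⟨fun w => ?_, List.nodup_cons.2 ⟨fun h => hv ((h1 _).2 h), h2⟩, by simp, fun w => ?_⟩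
      · rw [Arr.get_set]
        split_ifs with e
        · simp [e]
        · simp [e, h1]
      · simp only [List.mem_cons, Option.some.injEq]
        tauto

theorem foldl_mark (l : List ℕ) (a : Arr Bool) (w : ℕ) :
    (l.foldl (fun a v => a.set v true) a).get w = true ↔ a.get w = true ∨ w ∈ l := by
  induction l generalizing a with
  | nil => simp
  | cons v l ih =>
    rw [List.foldl_cons, ih, Arr.get_set]
    split_ifs with e <;> simp [e]

/-- `List.find?` with a fast test. -/
def findP {β : Type} (p : β → Bool) (l : List β) : M (Option β) := pay l.length (l.find? p)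

/-- `List.takeWhile` with a fast test. -/
def twP {β : Type} (p : β → Bool) (l : List β) : M (List β) := pay l.length (l.takeWhile p)

@[simp] theorem Tri_findP {β : Type} {c : Cx} (p : β → Bool) (l : List β)
    (Q : Option β → ℕ → Prop) : Tri c (findP p l) Q ↔ Q (l.find? p) l.length := Tri_pay _ _ _

@[simp] theorem Tri_twP {β : Type} {c : Cx} (p : β → Bool) (l : List β)
    (Q : List β → ℕ → Prop) : Tri c (twP p l) Q ↔ Q (l.takeWhile p) l.length := Tri_pay _ _ _

section impl
variable {α β : Type} [Rep α] [Rep β]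

@[fun_prop] theorem Impl.findP {p : α → β → Bool} {l : α → List β}
    (hp : Pure fun q : α × β => p q.1 q.2) (hl : Pure l) : Impl fun a => findP (p a) (l a) :=
  (show Impl fun a => foldP (fun s x => s.elim (if p a x = true then some x else none) some)
    none (l a) by fun_prop).of_eq fun a => by
      simp only [foldP, P305X.findP]
      congr 1
      have : ∀ (l : List β) (s : Option β), l.foldl
          (fun s x => s.elim (if p a x = true then some x else none) some) s =
          s.elim (l.find? (p a)) some := by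
        intro l
        induction l with
        | nil => intro s; cases s <;> rfl
        | cons x l ih =>
          intro s
          rw [List.foldl_cons, ih]
          cases s with
          | some y => rfl
          | none => by_cases h : p a x = true <;> simp [h]
      exact this _ _

@[fun_prop] theorem Impl.twP {p : α → β → Bool} {l : α → List β}
    (hp : Pure fun q : α × β => p q.1 q.2) (hl : Pure l) : Impl fun a => twP (p a) (l a) := by
  have h : Impl fun a => foldP (fun (s : Bool × List β) x =>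
      if s.1 = true ∧ p a x = true then (true, x :: s.2) else (false, s.2)) (true, []) (l a)
      >>= fun s => revP s.2 := by fun_prop
  refine h.of_pay 3 fun B a _ _ _ => ?_
  have key : ∀ (l : List β) (s : Bool × List β), (l.foldl (fun (s : Bool × List β) x =>
      if s.1 = true ∧ p a x = true then (true, x :: s.2) else (false, s.2)) s).2 =
      (if s.1 = true then l.takeWhile (p a) else []).reverse ++ s.2 := by
    intro l
    induction l with
    | nil => simp
    | cons x l ih =>
      intro s
      rw [List.foldl_cons, ih]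
      by_cases h1 : s.1 = true <;> by_cases h2 : p a x = true <;> simp [h1, h2]
  have := (List.takeWhile_prefix (p a) (l := l a)).length_le
  simp only [Tri_bind, Tri_foldP, Tri_revP, key, List.append_nil, List.reverse_reverse,
    List.length_reverse, true_and, if_true]
  exact lg_slack _ 2 _ _ (by omega)

@[fun_prop] theorem Pure.addK {s : α → Arr Bool × List ℕ} {o : α → Option ℕ} (hs : Pure s)
    (ho : Pure o) : Pure fun a => addK (s a) (o a) := by
  unfold P305X.addK
  fun_prop

end impl

/-- The keys for a list of terminals. -/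
def keysP (sp : Arr (List ℕ)) (ts : List ℕ) : M (Arr Bool × List ℕ) :=
  foldM (fun (s : Arr Bool × Arr Bool × List ℕ) x =>
    findP (fun w => s.1.get w) (sp.get x) >>= fun o =>
    foldP (fun a v => a.set v true) s.1 (sp.get x) >>= fun mk =>
    pure (mk, addK (addK s.2 (sp.get x).head?) o)) (Arr.const false, Arr.const false, []) ts
    >>= fun s => pure s.2

@[fun_prop] theorem Impl.keysP {α : Type} [Rep α] {sp : α → Arr (List ℕ)} {ts : α → List ℕ}
    (h1 : Pure sp) (h2 : Pure ts) : Impl fun a => keysP (sp a) (ts a) := by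
  unfold P305X.keysP
  fun_prop

theorem keysP_tri {c : Cx} {sp : Arr (List ℕ)} {par : ℕ → ℕ} (h : Fo sp.get par) {ts : List ℕ}
    {k : ℕ} (hk : ∀ x ∈ ts, (sp.get x).length ≤ k) :
    Tri c (keysP sp ts) fun s t => Keys sp.get par ts s.1.get s.2 ∧ t ≤ ts.length * (2 * k + 1) := by
  refine (Tri.foldM (fun pre s t => (∀ w, s.1.get w = true ↔ ∃ x ∈ pre, w ∈ sp.get x) ∧
    Keys sp.get par pre s.2.1.get s.2.2 ∧ t ≤ pre.length * (2 * k + 1))
    ⟨by simp, ⟨by simp, by simp, by simp, by simp, by simp, by simp⟩, by simp⟩ ?_).bind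
    fun s t hs => ⟨hs.2.1, hs.2.2⟩
  rintro pre x rest ⟨mk, s⟩ t e ⟨hm, hK, ht⟩
  simp only [Tri_bind, Tri_findP, Tri_foldP, Tri_pure]
  obtain ⟨a1, a2, a3, a4⟩ := addK_spec (s := s) (sp.get x).head? hK.mem hK.nodup
  obtain ⟨b1, b2, b3, b4⟩ := addK_spec ((sp.get x).find? fun w => mk.get w) a1 a2
  have hx := hk x (by simp [e])
  have hlen := hK.len
  have key : ∀ c ∈ sp.get x, ∀ x' ∈ pre, ∀ c' ∈ sp.get x', par c = par c' → sp.get (par c) ≠ [] →
      (∃ y ∈ pre, c ∈ sp.get y) ∨
        (sp.get x).find? (fun w => mk.get w) = some (par c) := by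
    intro c hc x' hx' c' hc' ep hp
    by_cases hmk : ∃ y ∈ pre, c ∈ sp.get y
    · exact Or.inl hmk
    right
    have h1 : sp.get (par c) = par c :: sp.get (par (par c)) := (h _).resolve_left hp
    obtain ⟨a, ea⟩ := h.split hc
    rw [h.ne_nil hc, h1] at ea
    have h2 : mk.get (par c) = true := (hm _).2 ⟨x', hx', h.trans hc' (by
      rw [h.ne_nil hc', ← ep, h1]; simp)⟩
    rw [List.find?_eq_some_iff_append]
    refine ⟨h2, a ++ [c], sp.get (par (par c)), by simp [ea], fun v hv => ?_⟩
    simp only [Bool.not_eq_eq_eq_not, Bool.not_true]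
    by_contra hv'
    obtain ⟨y, hy, hvy⟩ := (hm v).1 (by simpa using hv')
    refine hmk ⟨y, hy, h.trans hvy ?_⟩
    rcases List.mem_append.1 hv with hv | hv
    · obtain ⟨a1, a2, rfl⟩ := List.append_of_mem hv
      rw [List.append_assoc, List.cons_append] at ea
      rw [h.suffix ea]
      simp
    · obtain rfl := List.mem_singleton.1 hv
      rw [h.ne_nil hc]
      simp
  refine ⟨fun w => ?_, ⟨b1, b2, ?_, fun w hw => ?_, fun y hy hn => ?_, ?_⟩, ?_⟩
  · rw [foldl_mark, hm]
    simp only [List.mem_append, List.mem_singleton]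
    constructor
    · rintro (⟨y, h1, h2⟩ | h1)
      · exact ⟨y, Or.inl h1, h2⟩
      · exact ⟨x, Or.inr rfl, h1⟩
    · rintro ⟨y, h1 | rfl, h2⟩
      · exact Or.inl ⟨y, h1, h2⟩
      · exact Or.inr h2
  · simp only [List.length_append, List.length_singleton] at *
    omega
  · rcases (b4 w).1 hw with h1 | h1
    · rcases (a4 w).1 h1 with h2 | h2
      · obtain ⟨y, h3, h4⟩ := hK.sub w h2
        exact ⟨y, by simp [h3], h4⟩
      · exact ⟨x, by simp, List.mem_of_mem_head? h2⟩
    · exact ⟨x, by simp, List.mem_of_find?_eq_some h1⟩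
  · rcases List.mem_append.1 hy with h1 | h1
    · exact (b4 _).2 (Or.inl ((a4 _).2 (Or.inl (hK.term y h1 hn))))
    · obtain rfl := List.mem_singleton.1 h1
      exact (b4 _).2 (Or.inl ((a4 _).2 (Or.inr (by rw [(h y).resolve_left hn]; rfl))))
  · have old : ∀ y ∈ pre, ∀ y' ∈ pre, ∀ c ∈ sp.get y, ∀ c' ∈ sp.get y', par c = par c' →
        sp.get (par c) ≠ [] → c = c' ∨ par c ∈ (addK (addK s (sp.get x).head?)
          ((sp.get x).find? fun w => mk.get w)).2 := fun y hy y' hy' c hc c' hc' ep hp =>
      (hK.br y hy y' hy' c hc c' hc' ep hp).imp_right fun h1 =>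
        (b4 _).2 (Or.inl ((a4 _).2 (Or.inl h1)))
    intro y hy y' hy' c hc c' hc' ep hp
    rcases List.mem_append.1 hy with h1 | h1 <;> rcases List.mem_append.1 hy' with h2 | h2
    · exact old y h1 y' h2 c hc c' hc' ep hp
    · obtain rfl := List.mem_singleton.1 h2
      rcases key c' hc' y h1 c hc ep.symm (ep ▸ hp) with ⟨z, hz, h3⟩ | h3
      · exact old y h1 z hz c hc c' h3 ep hp
      · exact Or.inr ((b4 _).2 (Or.inr (ep ▸ h3)))
    · obtain rfl := List.mem_singleton.1 h1
      rcases key c hc y' h2 c' hc' ep hp with ⟨z, hz, h3⟩ | h3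
      · exact old z hz y' h2 c h3 c' hc' ep hp
      · exact Or.inr ((b4 _).2 (Or.inr h3))
    · obtain rfl := List.mem_singleton.1 h1
      obtain rfl := List.mem_singleton.1 h2
      exact Or.inl (h.eq_of_length hc hc' (by rw [h.ne_nil hc, h.ne_nil hc', ep]; rfl))
  · simp only [List.length_append, List.length_singleton]
    nlinarith

/-! ### Segments -/

theorem mem_tw {β : Type} {p : β → Bool} {l : List β} {x : β} (h : x ∈ l.takeWhile p) :
    p x = true := List.all_eq_true.1 (List.all_takeWhile (p := p) (l := l)) x h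

/-- The part of the spoke of `y` below the next key. -/
def seg (sp : ℕ → List ℕ) (key : ℕ → Bool) (y : ℕ) : List ℕ :=
  y :: (sp y).tail.takeWhile fun w => !key w

/-- The next key (or stop) above `y`. -/
def nxt (sp : ℕ → List ℕ) (par : ℕ → ℕ) (key : ℕ → Bool) (y : ℕ) : ℕ :=
  (seg sp key y).foldl (fun _ w => par w) y

/-- The compressed spoke. -/
def csp (sp : ℕ → List ℕ) (key : ℕ → Bool) (x : ℕ) : List ℕ := (sp x).filter key

variable {key : ℕ → Bool}

theorem Fo.foldl_par (h : Fo sp par) : ∀ {a : List ℕ} {x : ℕ} {l : List ℕ}, sp x = a ++ l →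
    l = sp (a.foldl (fun _ w => par w) x)
  | [], _, _, e => e.symm
  | w :: a, x, l, e => by
    obtain ⟨rfl, e'⟩ := h.cons e
    exact h.foldl_par (a := a) (x := par w) (l := l) e'.symm |>.trans (by
      cases a <;> rfl)

/-- The spoke of `y` consists of the segment and the spoke of the next key. -/
theorem Fo.seg_append (h : Fo sp par) {y : ℕ} (hy : sp y ≠ []) :
    sp y = seg sp key y ++ sp (nxt sp par key y) := by
  have e : sp y = seg sp key y ++ (sp y).tail.dropWhile fun w => !key w := by
    rw [seg, List.cons_append, List.takeWhile_append_dropWhile, (h y).resolve_left hy]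
    rfl
  rw [nxt, ← h.foldl_par e]
  exact e

theorem Fo.nxt_key (h : Fo sp par) {y : ℕ} (hy : sp y ≠ []) (hn : sp (nxt sp par key y) ≠ []) :
    key (nxt sp par key y) = true := by
  have e := h.seg_append (key := key) hy
  have e1 : (sp y).tail = ((sp y).tail.takeWhile fun w => !key w) ++ sp (nxt sp par key y) := by
    conv_lhs => rw [e]
    rfl
  have e2 := List.append_cancel_left (List.takeWhile_append_dropWhile.trans e1)
  have := List.head?_dropWhile_not (fun w => !key w) (sp y).tail
  rw [e2, (h _).resolve_left hn] at this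
  simpa using this

theorem Fo.nxt_lt (h : Fo sp par) {y : ℕ} (hy : sp y ≠ []) :
    (sp (nxt sp par key y)).length < (sp y).length := by
  conv_rhs => rw [h.seg_append (key := key) hy]
  simp [seg]

theorem Fo.seg_sub (h : Fo sp par) {y w : ℕ} (hy : sp y ≠ []) (hw : w ∈ seg sp key y) :
    w ∈ sp y := by
  rw [h.seg_append (key := key) hy]
  exact List.mem_append_left _ hw

theorem Fo.seg_length (h : Fo sp par) {y : ℕ} (hy : sp y ≠ []) :
    (seg sp key y).length ≤ (sp y).length := by
  conv_rhs => rw [h.seg_append (key := key) hy]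
  simp

theorem csp_nil {x : ℕ} (hx : sp x = []) : csp sp key x = [] := by simp [csp, hx]

theorem Fo.csp_cons (h : Fo sp par) {y : ℕ} (hy : sp y ≠ []) (hk : key y = true) :
    csp sp key y = y :: csp sp key (nxt sp par key y) := by
  rw [csp, h.seg_append (key := key) hy, List.filter_append, seg, List.filter_cons_of_pos hk,
    List.filter_eq_nil_iff.2 fun w hw => by simpa using mem_tw hw]
  rfl

/-- Induction along the keys of a spoke. -/
theorem Fo.key_ind (h : Fo sp par) {P : ℕ → Prop} (h0 : ∀ x, sp x = [] → P x)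
    (h1 : ∀ y, sp y ≠ [] → key y = true → P (nxt sp par key y) → P y) {x : ℕ}
    (hx : sp x ≠ [] → key x = true) : P x := by
  induction hn : (sp x).length using Nat.strong_induction_on generalizing x with
  | _ n ih =>
    by_cases e : sp x = []
    · exact h0 x e
    · exact h1 x e (hx e) (ih _ (hn ▸ h.nxt_lt e) (h.nxt_key e) rfl)

theorem Fo.flatMap_seg (h : Fo sp par) {x : ℕ} (hx : sp x ≠ [] → key x = true) :
    (csp sp key x).flatMap (seg sp key) = sp x := by
  refine h.key_ind (P := fun x => (csp sp key x).flatMap (seg sp key) = sp x) (fun x e => ?_)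
    (fun y hy hk ih => ?_) hx
  · rw [csp_nil e, e]; rfl
  · rw [h.csp_cons hy hk, List.flatMap_cons, ih, ← h.seg_append hy]

/-- A vertex of a segment is its key, or not a key and the parent of a vertex of the segment. -/
theorem Fo.seg_cases (h : Fo sp par) {y w : ℕ} (hy : sp y ≠ []) (hw : w ∈ seg sp key y) :
    w = y ∨ (key w = false ∧ ∃ c ∈ seg sp key y, par c = w) := by
  rcases List.mem_cons.1 hw with e | hw'
  · exact Or.inl e
  refine Or.inr ⟨by simpa using mem_tw hw', ?_⟩
  obtain ⟨a, l, e⟩ := List.append_of_mem hw'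
  have e1 : seg sp key y = (y :: a) ++ w :: l := by rw [seg, e]; rfl
  obtain ⟨a', c, e2⟩ : ∃ a' c, y :: a = a' ++ [c] :=
    ⟨_, _, (List.dropLast_append_getLast (List.cons_ne_nil y a)).symm⟩
  have e3 := h.seg_append (key := key) hy
  rw [e1, e2, List.append_assoc, List.append_assoc, List.singleton_append] at e3
  have e4 := (h.cons (h.suffix e3)).2
  refine ⟨c, by rw [e1, e2]; simp, (h.cons e4.symm).1.symm⟩

/-- The segments are disjoint. -/
theorem Keys.seg_inj (h : Fo sp par) {ts ks : List ℕ} (hK : Keys sp par ts key ks) {y y' w : ℕ}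
    (hy : y ∈ ks) (hy' : y' ∈ ks) (hw : w ∈ seg sp key y) (hw' : w ∈ seg sp key y') : y = y' := by
  obtain ⟨x, hx, hyx⟩ := hK.sub y hy
  obtain ⟨x', hx', hyx'⟩ := hK.sub y' hy'
  have n1 : sp y ≠ [] := by rw [h.ne_nil hyx]; simp
  have n2 : sp y' ≠ [] := by rw [h.ne_nil hyx']; simp
  induction hn : (sp y).length - (sp w).length using Nat.strong_induction_on generalizing w with
  | _ n ih =>
    rcases h.seg_cases n1 hw with e | ⟨k1, c, hc, ec⟩ <;>
      rcases h.seg_cases n2 hw' with e' | ⟨k2, c', hc', ec'⟩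
    · exact e.symm.trans e'
    · rw [e, (hK.mem y).2 hy] at k2; cases k2
    · rw [e', (hK.mem y').2 hy'] at k1; cases k1
    · have m1 := h.seg_sub n1 hc
      have m2 := h.seg_sub n2 hc'
      have n3 : sp w ≠ [] := by rw [h.ne_nil (h.seg_sub n1 hw)]; simp
      rcases hK.br x hx x' hx' c (h.trans hyx m1) c' (h.trans hyx' m2) (ec.trans ec'.symm)
        (ec ▸ n3) with e | e
      · refine ih _ ?_ hc (e ▸ hc') rfl
        have a1 := h.length_le m1
        have a2 : (sp c).length = (sp w).length + 1 := by rw [h.ne_nil m1, ec]; rfl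
        omega
      · rw [ec, ← hK.mem, k1] at e; cases e

theorem Keys.ne_nil (h : Fo sp par) {ts ks : List ℕ} (hK : Keys sp par ts key ks) {y : ℕ}
    (hy : y ∈ ks) : sp y ≠ [] := by
  obtain ⟨x, -, hyx⟩ := hK.sub y hy
  rw [h.ne_nil hyx]; simp

theorem Keys.csp_sub {ts ks : List ℕ} (hK : Keys sp par ts key ks) {x y : ℕ}
    (hy : y ∈ csp sp key x) : y ∈ ks := (hK.mem y).1 (List.mem_filter.1 hy).2

theorem Keys.term' {ts ks : List ℕ} (hK : Keys sp par ts key ks) {x : ℕ} (hx : x ∈ ts) :
    sp x ≠ [] → key x = true := fun h => (hK.mem x).2 (hK.term x hx h)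

end Vale.Agent.P305X
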