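import Vale.Agent.P305RW.Main
import Vale.Agent.P305X.Mid

/-!
# The router on objects in the form used to build a level
-/

namespace Vale.Agent.P305X

open Vale.Agent.P305E Vale.Agent.P305C

theorem rw_bd (hR : P305RW.RW) : P305BD.RW := by
  obtain ⟨f, c, h⟩ := hR 17
  refine ⟨f, c, h.impl, ?_⟩
  intro B e b d q k N X es d1 d2 q1 q2 k1 k2 he hN hX hes hn hT hB
  have p1 : 2 ^ (17 * b) ≤ 2 ^ (17 * (b + 1)) := Nat.pow_le_pow_right (by omega) (by omega)
  have p2 : 2 ^ (b + 1) ≤ 2 ^ (17 * (b + 1)) := Nat.pow_le_pow_right (by omega) (by omega)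
  have p3 : 2 ^ b ≤ 2 ^ (17 * (b + 1)) := Nat.pow_le_pow_right (by omega) (by omega)
  have p4 : d ≤ b := (Nat.pow_le_pow_iff_right (a := 2) (by omega)).1
    ((Nat.pow_le_pow_left (by omega) d).trans d2)
  refine (h.spec B e b d q k N X es (fun i => (es.getD i (0, 0, 0)).1)
    (fun i => (es.getD i (0, 0, 0)).2.1) (fun i => (es.getD i (0, 0, 0)).2.2)
    (fun i hi => (List.getD_eq_getElem _ _ hi).symm)
    (fun o ho => ⟨(hes o ho).1.trans p3, (hes o ho).2⟩) (hN.trans p2) (by omega) hn hT k1 k2 d1 p4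
    q1 q2 he hB).mono ?_
  rintro r t ⟨h1, h2, h3⟩
  refine ⟨⟨h1.nd, h1.sub, h1.walk, h1.skel, h1.hops, fun s => h1.countP_le s fun i _ hx => ?_⟩, h2,
    h3.trans (Nat.mul_le_mul_left _ (by omega))⟩
  obtain ⟨x, x1, x2⟩ := List.mem_map.1 (of_decide_eq_true hx)
  exact ⟨x, x1, x2⟩

/-- From the router to the blocks RW and MID. -/
theorem route_bd (h : P305R.ROUTE) : P305BD.RW := rw_bd (P305RW.rw h)

theorem route_mid (h : P305R.ROUTE) : P305BD.MID := mid (route_bd h)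

end Vale.Agent.P305X
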